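import Vale.Agent.P368H.Main

/-!
# P368: parity at entangling depth two
-/

open P368H in
/-- Entangling depth two, any number of gates and of ancillas, any output qubit: the parity
correlation is at most `90 * 2 ^ (-n/4)`. -/
theorem Vale.Agent.Results.P368.DepthTwo.result (n a : ℕ) (c : List (Layer (Fin n ⊕ Fin a)))
    (hc : entDepth c ≤ 2) (o : Fin n ⊕ Fin a) :
    |corr (circ c) o| ≤ 90 * (2 : ℝ) ^ (-(n : ℝ) / 4) :=
  P368H.main n a c hc o
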