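import Vale.Agent.P368.Unit

/-! # P368: parity correlation is exponentially small unless the number of gates is linear -/

namespace Vale.Agent.Results.P368.GateCount

open QACParity

/-- For every circuit `C` (any depth, any number `a` of ancillas, arbitrary one-qubit gates) on `n`
inputs with `nTof C` generalized Toffoli gates and every measured qubit `out`: the parity
correlation is at most `2 * 9 ^ (nTof C) / 2 ^ n` in absolute value; and if the circuit computes
parity with worst-case advantage `ε`, then `9 ^ (nTof C) ≥ ε * 2 ^ n`, so that the number of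
generalized Toffoli gates is at least `(n log 2 - log (1/ε)) / log 9`. -/
theorem result (n a : ℕ) (C : List (Gate (Fin n ⊕ Fin a))) (out : Fin n ⊕ Fin a) :
    |corr C out| ≤ 2 * 9 ^ nTof C / 2 ^ n ∧
    ∀ ε : ℝ, 0 < ε → (∀ x : Fin n → Bool, 1 / 2 + ε ≤ pr C out x (par x)) →
      ε * 2 ^ n ≤ 9 ^ nTof C ∧
      (n * Real.log 2 - Real.log (1 / ε)) / Real.log 9 ≤ nTof C := by
  refine ⟨main_bound C out, fun ε hε h => ?_⟩
  have h1 := worst_case C out ε h
  refine ⟨h1, ?_⟩
  have h9 : 0 < Real.log 9 := Real.log_pos (by norm_num)
  rw [div_le_iff₀ h9]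
  have h2 := Real.log_le_log (by positivity) h1
  rw [Real.log_mul hε.ne' (by positivity), Real.log_pow, Real.log_pow] at h2
  rw [one_div, Real.log_inv]
  linarith

end Vale.Agent.Results.P368.GateCount
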